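import Vale.Agent.Lib.P110.Osc2

open Vale.Agent.Lib.P110

/-- For all `C` and `ℓ > 0` there are `δ > 0` and `N₀` such that every real Littlewood polynomial of
length `N ≥ N₀` with `|P|² ≤ C N` on the circle has `|P(e^{iθ})|² > δ N` for some `θ` in every
interval of length `ℓ`. -/
theorem Vale.Agent.Results.P110.NoArcGap.result (C ℓ : ℝ) (hℓ : 0 < ℓ) :
    ∃ δ : ℝ, 0 < δ ∧ ∃ N₀ : ℕ, ∀ N : ℕ, N₀ ≤ N → ∀ a : ℕ → ℤ, IsLittlewood a N →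
      (∀ θ : ℝ, ‖polyAt a N θ‖ ^ 2 ≤ C * N) →
      ∀ θ₁ : ℝ, ∃ θ : ℝ, θ₁ < θ ∧ θ < θ₁ + ℓ ∧ δ * N < ‖polyAt a N θ‖ ^ 2 :=
  littlewood_no_gap C ℓ hℓ
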