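import Vale.Agent.Lib.P110.Osc2

open Vale.Agent.Lib.P110

/-- For every `V` there are `ε > 0` and `N₀` such that the phase derivative
`θ ↦ Re (z P'(z) / P(z))`, `z = e^{iθ}`, of every real Littlewood polynomial of length `N ≥ N₀` with
`| |P|² - N | ≤ ε N` on the circle has total variation more than `V N` on `[0, 2π]`. -/
theorem Vale.Agent.Results.P110.PhaseVariation.result (V : ℝ) :
    ∃ ε : ℝ, 0 < ε ∧ ∃ N₀ : ℕ, ∀ N : ℕ, N₀ ≤ N → ∀ a : ℕ → ℤ, IsLittlewood a N → IsFlat ε a N →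
      ENNReal.ofReal (V * N) < eVariationOn (phaseDeriv a N) (Set.Icc 0 (2 * Real.pi)) :=
  phase_variation V
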