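import Vale.Agent.Lib.P110.Count2

open Vale.Agent.Lib.P110

/-- For every `κ > 0` there are `ε > 0` and `N₀` such that, for all `N ≥ N₀`, at most `2 ^ (κ N)`
sign strings of length `N` give a Littlewood polynomial with `| |P|² - N | ≤ ε N` on the circle. -/
theorem Vale.Agent.Results.P110.ZeroEntropy.result (κ : ℝ) (hκ : 0 < κ) :
    ∃ ε : ℝ, 0 < ε ∧ ∃ N₀ : ℕ, ∀ N : ℕ, N₀ ≤ N →
      (Set.ncard {s : Fin N → Bool | IsFlat ε (signSeq s) N} : ℝ) ≤ (2 : ℝ) ^ (κ * N) :=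
  flat_count κ hκ
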