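import Vale.Agent.Results.P110.FullOscillation
import Vale.Agent.Results.P110.NoArcGap
import Vale.Agent.Results.P110.PhaseVariation
import Vale.Agent.Results.P110.ZeroEntropy

open Vale.Agent.Lib.P110

/-- Conjunction of the separate partial results of this problem. -/
theorem Vale.Agent.Results.P110.A0Conj.result :
    (∀ (ℓ r : ℝ) (hℓ : 0 < ℓ) (hr : 0 < r),
      ∃ ε : ℝ, 0 < ε ∧ ∃ N₀ : ℕ, ∀ N : ℕ, N₀ ≤ N → ∀ a : ℕ → ℤ, IsLittlewood a N → IsFlat ε a N →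
      ∀ θ₁ x₀ : ℝ, 0 ≤ x₀ → x₀ ≤ 1 → ∃ θ : ℝ, θ₁ < θ ∧ θ < θ₁ + ℓ ∧
        |phaseDeriv a N θ / N - x₀| ≤ r) ∧
    (∀ (C ℓ : ℝ) (hℓ : 0 < ℓ),
      ∃ δ : ℝ, 0 < δ ∧ ∃ N₀ : ℕ, ∀ N : ℕ, N₀ ≤ N → ∀ a : ℕ → ℤ, IsLittlewood a N →
      (∀ θ : ℝ, ‖polyAt a N θ‖ ^ 2 ≤ C * N) →
      ∀ θ₁ : ℝ, ∃ θ : ℝ, θ₁ < θ ∧ θ < θ₁ + ℓ ∧ δ * N < ‖polyAt a N θ‖ ^ 2) ∧
    (∀ (V : ℝ),
      ∃ ε : ℝ, 0 < ε ∧ ∃ N₀ : ℕ, ∀ N : ℕ, N₀ ≤ N → ∀ a : ℕ → ℤ, IsLittlewood a N → IsFlat ε a N →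
      ENNReal.ofReal (V * N) < eVariationOn (phaseDeriv a N) (Set.Icc 0 (2 * Real.pi))) ∧
    (∀ (κ : ℝ) (hκ : 0 < κ),
      ∃ ε : ℝ, 0 < ε ∧ ∃ N₀ : ℕ, ∀ N : ℕ, N₀ ≤ N →
      (Set.ncard {s : Fin N → Bool | IsFlat ε (signSeq s) N} : ℝ) ≤ (2 : ℝ) ^ (κ * N)) :=
  ⟨@Vale.Agent.Results.P110.FullOscillation.result,
   @Vale.Agent.Results.P110.NoArcGap.result,
   @Vale.Agent.Results.P110.PhaseVariation.result,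
   @Vale.Agent.Results.P110.ZeroEntropy.result⟩
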