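import Vale.Agent.Lib.P110.Osc2

open Vale.Agent.Lib.P110

/-- For all `ℓ, r > 0` there are `ε > 0` and `N₀` such that for every real Littlewood polynomial of
length `N ≥ N₀` with `| |P|² - N | ≤ ε N` on the circle, on every interval of `θ` of length `ℓ`
the normalized phase derivative `Re (z P'(z) / P(z)) / N` at `z = e^{iθ}` comes within `r` of every
point of `[0, 1]`. -/
theorem Vale.Agent.Results.P110.FullOscillation.result (ℓ r : ℝ) (hℓ : 0 < ℓ) (hr : 0 < r) :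
    ∃ ε : ℝ, 0 < ε ∧ ∃ N₀ : ℕ, ∀ N : ℕ, N₀ ≤ N → ∀ a : ℕ → ℤ, IsLittlewood a N → IsFlat ε a N →
      ∀ θ₁ x₀ : ℝ, 0 ≤ x₀ → x₀ ≤ 1 → ∃ θ : ℝ, θ₁ < θ ∧ θ < θ₁ + ℓ ∧
        |phaseDeriv a N θ / N - x₀| ≤ r :=
  phase_osc ℓ r hℓ hr
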